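import Vale.Agent.P256.Lift.Main

namespace Vale.Agent.Results.P256.ExponentialLifts

open Vale.Agent.P256 MvPolynomial

/-- Semidefinite lifts of hyperbolicity cones can need exponential size. -/
theorem result :
    (∀ l : ℕ, 40 ≤ l → ∃ (p : MvPolynomial (Fin (4 * l + 1)) ℝ) (e : Fin (4 * l + 1) → ℝ),
      p.IsHomogeneous (2 * l) ∧ Hyperbolic p e ∧
      (∀ y, y ≠ 0 → eval y p = 0 → ∃ i, eval y (pderiv i p) ≠ 0) ∧
      ∀ (k a : ℕ) (A₀ : Matrix (Fin k) (Fin k) ℝ)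
        (A : Fin (4 * l + 1) → Matrix (Fin k) (Fin k) ℝ) (B : Fin a → Matrix (Fin k) (Fin k) ℝ),
        A₀.IsSymm → (∀ i, (A i).IsSymm) → (∀ j, (B j).IsSymm) →
        hypCone p e = {x | ∃ u : Fin a → ℝ, (A₀ + ∑ i, x i • A i + ∑ j, u j • B j).PosSemidef} →
        2 ^ (l / 4) < k) ∧
    (∀ l m N : ℕ, 1 ≤ l → 2 * l ≤ m →
      ((N + 2 * m + 1) ^ 4 + (N + 2 * m + 1) ^ 2 * m + m) *
        (10 * (l + m + 1) ^ 2 + 6 * (N + 2 * m + 1) + 13) < m.choose (2 * l) →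
      ∃ (p : MvPolynomial (Fin (m + 1)) ℝ) (e : Fin (m + 1) → ℝ), p.IsHomogeneous (2 * l) ∧
        Hyperbolic p e ∧ (∀ y, y ≠ 0 → eval y p = 0 → ∃ i, eval y (pderiv i p) ≠ 0) ∧
        ∀ (k a : ℕ) (A₀ : Matrix (Fin k) (Fin k) ℝ) (A : Fin (m + 1) → Matrix (Fin k) (Fin k) ℝ)
          (B : Fin a → Matrix (Fin k) (Fin k) ℝ),
          A₀.IsSymm → (∀ i, (A i).IsSymm) → (∀ j, (B j).IsSymm) →
          hypCone p e = {x | ∃ u : Fin a → ℝ, (A₀ + ∑ i, x i • A i + ∑ j, u j • B j).PosSemidef} →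
          N < k) :=
  ⟨fun l hl => Lift.lower_bound l (4 * l) _ (by omega) (by omega) (Lift.exponential l hl),
    fun l m N hl hlm h => Lift.lower_bound l m N hl hlm h⟩

end Vale.Agent.Results.P256.ExponentialLifts
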