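import Vale.Agent.P256.Flat.Main

namespace Vale.Agent.Results.P256.OrdinarySingularities

open Vale.Agent.P256 MvPolynomial

/-- A hyperbolicity cone all of whose nonzero boundary points are ordinary, of any multiplicity,
is a spectrahedral shadow. The cone may have segments and flat faces in its boundary and need not
be pointed. -/
theorem result (n d : ℕ) (p : MvPolynomial (Fin n) ℝ) (e : Fin n → ℝ) (hn : 3 ≤ n)
    (hp : p.IsHomogeneous d) (he : Hyperbolic p e)
    (hO : ∀ y ∈ frontier (hypCone p e), y ≠ 0 →
      ∀ z ∈ frontier (hypCone (tangentForm p y) e),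
        z ∉ Submodule.span ℝ ({y} : Set (Fin n → ℝ)) →
          ∃ i, eval z (pderiv i (tangentForm p y)) ≠ 0) :
    IsShadow (hypCone p e) :=
  shadow_flat hp he (fun b hb hb0 z hz hspan h => by
    obtain ⟨i, hi⟩ := hO b hb hb0 z hz hspan
    exact hi (congrFun h i)) hn

end Vale.Agent.Results.P256.OrdinarySingularities
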